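import Vale.Agent.P277.H884.T.T6H
import Vale.Agent.P277.H615.X.Fin

/-!
# P277, (T6H)
-/

noncomputable section

namespace Vale.Agent.P277.H884.T

open Vale.Agent.P277

/-- (T6H) -/
theorem stT6H : T3.StT6H := stT6H_of H615.X.stContrS

end Vale.Agent.P277.H884.T
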