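import Vale.Agent.P277.H762.R2
import Vale.Agent.P277.Stmts27

/-!
# P277, T6: the tail of a sequence of flips, with a resolution of one of its members
-/

open scoped Manifold ContDiff Topology
open Vale.Agent.P272.K Vale.Agent.P285.H281.FD Vale.Agent.P267.H175 Set Filter

noncomputable section

namespace Vale.Agent.P277.H884.T

open Vale.Agent.P277 Vale.Agent.P277.T3

/-- If infinitely many of the spaces have resolutions, then infinitely many of the flipped loci
have dimension two. -/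
theorem tail0 {X Z : ℕ → CSp} {f : ∀ j, (X j).pt → (Z j).pt}
    {f' : ∀ j, (X (j + 1)).pt → (Z j).pt} {A : ∀ j, Set (Z j).pt} {L : ∀ j, Bd (X j).pt}
    {L' : ∀ j, Bd (X (j + 1)).pt}
    (hflip : ∀ j, IsFlip (X j) (Z j) (X (j + 1)) (f j) (f' j) (A j) (L j) (L' j))
    (hres : ∀ n, ∃ j ≥ n, HasRes (X j)) (n : ℕ) :
    ∃ j ≥ n, ¬ DimLe (X (j + 1)) 1 {x | ∃ x', f' j x' = f' j x ∧ x' ≠ x} := by
  by_contra hcon
  push Not at hcon
  obtain ⟨J, hJ, Y, _, _, _, _, _, v, O, h1, h2, h3, h4⟩ := hres n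
  obtain ⟨b, hb⟩ := H762.resR2 Y
  have h5 := hb (b + 1) (fun i => X (J + i)) (fun i => Z (J + i)) O v (fun i => f (J + i))
    (fun i => f' (J + i)) (fun i => A (J + i)) (fun i => L (J + i)) (fun i => L' (J + i))
    h1 h2 h3 h4 (fun i _ => hflip (J + i)) fun i _ => hcon (J + i) (by omega)
  omega

end Vale.Agent.P277.H884.T
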