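import Vale.Agent.P277.Stmts34
import Vale.Agent.P277.H29.E.T8
import Vale.Agent.P277.H371.T.FinCoreD

/-!
# P277, (T8): the assembly
-/

set_option maxSynthPendingDepth 3

open scoped Manifold ContDiff Topology
open Vale.Agent.P272.K Vale.Agent.P285.H281.FD Vale.Agent.P267.H175 Set Filter Metric

noncomputable section

namespace Vale.Agent.P277.H884.T

open Vale.Agent.P277 Vale.Agent.P277.T3 H615 H371.C H29.E

/-- the points hit by the flips with index `≥ J` are mapped to points hit by the flips -/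
theorem hitT_sub {Y : Type} [TopologicalSpace Y] {X Z : ℕ → CSp} {D : Set Y} {v : Y → (X 0).pt}
    {f : ∀ j, (X j).pt → (Z j).pt} {f' : ∀ j, (X (j + 1)).pt → (Z j).pt}
    (hsm : ∀ j, IsSmall (X j) (Z j) (f j) (Amin (f j)))
    (hsm' : ∀ j, IsSmall (X (j + 1)) (Z j) (f' j) (Amin (f j)))
    (hv : Continuous v) (J : ℕ) : hitT D v f f' J ⊆ {y | v y ∈ hit f f'} := by
  intro y hy
  by_contra hcon
  refine hy fun j _ => ?_
  obtain ⟨x, hx, h⟩ := cont_offH (D := D) hsm hsm' hv hcon j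
  exact ⟨x, fun h1 => hcon ⟨j, x, hx, h1⟩, h⟩

section

variable {Y : Type} [TopologicalSpace Y] [T2Space Y] [CompactSpace Y]
    [ChartedSpace (Cm 4) Y] [IsManifold 𝓘(ℂ, Cm 4) ω Y]
    {χ : Chart 4 Y → Cm 4 → Matrix (Fin 4) (Fin 4) ℂ} {k s : ℕ}
    {M : Fin (k + s) → Bd Y} {m : Fin (k + s) → ℕ} {ρ : Fin (k + s) → ℝ} {H : Fin s → Type}
    [∀ i, TopologicalSpace (H i)] [∀ i, T2Space (H i)] [∀ i, CompactSpace (H i)]
    [∀ i, ConnectedSpace (H i)] [∀ i, ChartedSpace (Cm 3) (H i)]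
    [∀ i, IsManifold 𝓘(ℂ, Cm 3) ω (H i)] {ι : ∀ i, H i → Y}
    {sg : ∀ i : Fin s, (M (Fin.natAdd k i)).ι → Y → ℂ} {W : CSp} {X Z : ℕ → CSp} {r : ℕ}
    {v : Y → W.pt} {p : W.pt → (X 0).pt} {P : Bd W.pt} {G : Fin r → Set Y}
    {f : ∀ j, (X j).pt → (Z j).pt} {f' : ∀ j, (X (j + 1)).pt → (Z j).pt}
    {A : ∀ j, Set (Z j).pt} {L : ∀ j, Fin (k + s) → Bd (X j).pt} {c : ℕ → Fin (k + s) → ℕ}
    {σ : ∀ j, ∀ i : Fin s, (L j (Fin.natAdd k i)).ι → (X j).pt → ℂ}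
    {n : Fin (k + s) → Fin r → ℤ} {t : ∀ e, (L 0 e).ι →
      ((((Bd.can 4 Y).pow (m e)).mul (M e)).pow (c 0 e)).ι → Y → ℂ}

/-- the count -/
theorem hP8 (h' : IsPG χ M m ρ ι sg v p P G f f' A L c σ n t) {a : Fin r → ℝ}
    (ha' : ∀ l, a l = ∑ e, ρ e * n e l / c 0 e)
    (h1 : ∃ J, ∀ j ≥ J, DimLe (X (j + 1)) 1 {x | BadPt {x | f' j x ∈ Amin (f j)}
      (Cor (⋃ l, G l) (fun y => p (v y)) f f' (j + 1))
      ((bad ι G {l | a l < 0 ∧ (a l ≤ -1 ∨ ZT (⋃ l, G l) (fun y => p (v y)) f f' (G l))}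
          {i | 1 ≤ ρ (Fin.natAdd k i)} ∪
        cross ι G {l | -1 < a l ∧ a l < 0}) ∩
          hitT (⋃ l, G l) (fun y => p (v y)) f f' j) x})
    (h2 : ∃ J, ∀ j ≥ J, DimLe (X (j + 1)) 1 {x | x ∈ f' j ⁻¹' Amin (f j) ∧
      ¬ IsReg 4 (X (j + 1)) x}) :
    ∀ (O : ℕ → Set Y) (v' : ∀ j, Y → (X j).pt), IsSeq X Z f f' (fun j => Amin (f j)) O v' →
      O 0 = (⋃ l, G l)ᶜ → (v' 0 = fun y => p (v y)) → ∀ β : ℝ,
      (∀ μ : Fin s, μ ∉ {i : Fin s | 1 ≤ ρ (Fin.natAdd k i)} → β < ρ (Fin.natAdd k μ) →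
        ∃ J, ∀ j ≥ J, ThinM 3 1 (ι μ ⁻¹' O j \ ι μ ⁻¹' O (j + 1))) →
      ∃ J, ∀ j ≥ J, DimLe (X (j + 1)) 1 {x | x ∈ f' j ⁻¹' Amin (f j) ∧
        (β ≤ 0 ∨ ∃ ν : Fin s, β ≤ ρ (Fin.natAdd k ν) ∧
          x ∈ zer (L (j + 1) (Fin.natAdd k ν)) (σ (j + 1) ν))} := by
  classical
  obtain ⟨J₁, h1⟩ := h1
  obtain ⟨J₃, h2⟩ := h2
  have h := h'.amin
  have hres := h.res
  have hneY : Nonempty Y := by
    have h3 := (h.flip 0).flip.ninj
    rw [Function.Injective] at h3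
    push Not at h3
    obtain ⟨x, -⟩ := h3
    obtain ⟨w, -⟩ := hres.psurj x
    obtain ⟨y, -⟩ := hres.surj w
    exact ⟨y⟩
  -- the closed analytic sets which contain the hit points
  set Hh : ℕ → Set Y := fun j => hitT (⋃ l, G l) (fun y => p (v y)) f f' j with hHh
  set Hd : Fin r → Prop := fun l => ZT (⋃ l, G l) (fun y => p (v y)) f f' (G l) with hHd
  have hex : ∀ l, ∃ (J : ℕ) (D : Set Y), IsClosed D ∧ (∀ y, T3.IsAnAt 4 D y) ∧
      (¬ Hd l → G l ∩ Hh J ⊆ D ∧ ¬ G l ⊆ D) ∧ D ⊆ G l := by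
    intro l
    by_cases hl : Hd l
    · exact ⟨0, ∅, isClosed_empty, fun y => H60.Z.isAnAt_of_notMem (by simp),
        fun h => (h hl).elim, empty_subset _⟩
    · have hl' := hl
      rw [hHd] at hl'
      simp only [ZT] at hl'
      push Not at hl'
      obtain ⟨J, C, hCc, hC, hC1, hC2⟩ := hl'
      refine ⟨J, G l ∩ C, (hres.closed l).inter hCc,
        fun y => isAnAt_inter (H60.Z.isAnAt_hyp (hres.hyp l) (hres.closed l) y) (hC y),
        fun _ => ⟨fun y hy => ⟨hy.1, hC1 hy⟩, fun h3 => hC2 fun y hy => (h3 hy).2⟩,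
        inter_subset_left⟩
  choose Jl D hDc hDan hDG hDsub using hex
  set J₂ : ℕ := Finset.univ.sup Jl with hJ₂
  have hJl : ∀ l, Jl l ≤ J₂ := fun l => Finset.le_sup (f := Jl) (Finset.mem_univ l)
  set K₀ : Set (Fin r) := {l | (-1 < a l ∧ a l < 0) ∧ ¬ Hd l} with hK₀
  set K : Set (Fin r) := {l | l ∈ K₀ ∧ ∀ l' ∈ K₀, l' ≠ l → ¬ G l ⊆ G l'} with hK
  set S : Finset (Fin r) := Finset.univ.filter (· ∈ K) with hS
  have hmS : ∀ l, l ∈ S ↔ l ∈ K := fun l => by simp [hS]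
  set C : Set Y := ⋃ l ∈ S, D l with hC
  have hCc : IsClosed C := isClosed_biUnion_finset fun l _ => hDc l
  have hCan : ∀ y, T3.IsAnAt 4 C y := fun y => H60.Z.isAnAt_biUnion S fun l _ => hDan l y
  have hGC : ∀ l ∈ K, ¬ G l ⊆ C := by
    intro l hl
    refine not_sub_biUnion (hres.hyp l) (hres.conn l) ?_ hDc hDan S fun l' hl' h3 => ?_
    · rw [nonempty_iff_ne_empty]
      intro h3
      refine (hDG l hl.1.2).2 ?_
      rw [h3]
      exact empty_subset _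
    · by_cases hll : l' = l
      · subst hll
        exact (hDG l' hl.1.2).2 h3
      · exact hl.2 l' ((hmS l').1 hl').1 hll (h3.trans (hDsub l'))
  have hCd : ∀ l ∈ K, G l ⊆ closure (G l \ C) := fun l hl =>
    sub_closure_an (hres.hyp l) (hres.conn l) hCc hCan (hGC l hl)
  refine H335.MM.stP7M Y χ k s M m ρ H ι sg W X Z r v p P G f f' _ L c σ n t h
      {l | a l < 0 ∧ l ∉ K} K
      {i | 1 ≤ ρ (Fin.natAdd k i)} (fun l hl hlK => ?_) (fun l hl => ?_) (fun i hi => not_le.1 hi)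
      C hCc hCd (fun l hl => ?_) (max J₂ (max J₁ J₃)) (fun j hj => h2 j (by omega)) fun j hj => ?_
  · rw [← ha']
    by_contra h3
    exact hl ⟨not_le.1 h3, hlK⟩
  · rw [← ha']; exact hl.1.1.1
  · exact H335.MM.stSurf (hres.hyp l) (hres.closed l) hCc hCan (hCd l hl)
  · refine (h1 j (by omega)).mono fun x hx => badPt_mono ?_ (cor_dense h' j).1 hx
    intro φ γ w hφ hγ hS' hB hfr
    have h3 : γ w ∈ Hh j := hin_hitT h' j φ γ w hφ hγ hS' hfr
    refine ⟨?_, h3⟩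
    rcases hB with (hB | hB) | hB
    · rcases hB with hB | hB
      · obtain ⟨l, hl, h5⟩ := mem_iUnion₂.1 hB
        by_cases h6 : a l ≤ -1 ∨ Hd l
        · exact Or.inl (Or.inl (mem_iUnion₂.2 ⟨l, ⟨hl.1, h6⟩, h5⟩))
        · rw [not_or] at h6
          have h7 : l ∈ K₀ := ⟨⟨not_le.1 h6.1, hl.1⟩, h6.2⟩
          have h8 : ∃ l' ∈ K₀, l' ≠ l ∧ G l ⊆ G l' := by
            by_contra h9
            push Not at h9
            exact hl.2 ⟨h7, h9⟩
          obtain ⟨l', h9, h10, h11⟩ := h8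
          exact Or.inr ⟨l, h7.1, h5, Or.inl ⟨l', h9.1, h10, h11 h5⟩⟩
      · exact Or.inl (Or.inr hB)
    · obtain ⟨l, hl, hy, ⟨l', hl', hne', hy'⟩ | ⟨i, hi⟩⟩ := hB
      · exact Or.inr ⟨l, hl.1.1, hy, Or.inl ⟨l', hl'.1.1, hne', hy'⟩⟩
      · exact Or.inr ⟨l, hl.1.1, hy, Or.inr ⟨i, hi⟩⟩
    · obtain ⟨l, hl, h5⟩ := mem_iUnion₂.1 hB
      have h6 : γ w ∈ Hh (Jl l) := hitT_anti ((hJl l).trans (by omega)) h3
      exact (h5.2 (mem_iUnion₂.2 ⟨l, (hmS l).2 hl, (hDG l hl.1.2).1 ⟨h5.1, h6⟩⟩)).elim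

end

/-- (T8A) -/
theorem stT8A : T3.StT8A := by
  intro Y _ _ _ _ _ χ hχ k s M hM hnef m hm hm0 ρ hρ hsum H _ _ _ _ _ _ ι sg hbd hdisj W X Z r
    v p P G hres hne f f' A L c hc n hn hflip a ha
  obtain ⟨L', c', σ, t, hc', hcmp, hcorr, hcc, hfl⟩ :=
    H371.G.wrap_core (ι := ι) hM hm0 hbd hres hc hn hflip
  have h' : IsPG χ M m ρ ι sg v p P G f f' A L' c' σ n t :=
    ⟨hχ, hM, hnef, hm, hm0, hρ, hsum, hbd, hdisj, hres, hne, hc', hcmp, hcorr, hfl⟩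
  have ha' : ∀ l, a l = ∑ e, ρ e * n e l / c' 0 e := by
    intro l
    simp only [hcc]
    exact ha l
  have h := h'.amin
  -- the first part
  have hp1 : ∃ J, ∀ j ≥ J, DimLe (X (j + 1)) 1 {x | f' j x ∈ Amin (f j) ∧
      ¬ IsReg 4 (X (j + 1)) x ∧ x ∉ Tot (Cor (⋃ l, G l) (fun y => p (v y)) f f' (j + 1))
        (closure ((bad ι G {l | a l < -1} {i | 1 < ρ (Fin.natAdd k i)} ∪
          cross ι G {l | -1 ≤ a l ∧ a l < 0}) ∩
            hitT (⋃ l, G l) (fun y => p (v y)) f f' j))} := by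
    have h1 := stT6N Y χ k s M m ρ H ι sg W X Z r v p P G f f' A L' c' σ n t h'
      {l | a l < -1} {l | -1 ≤ a l ∧ a l < 0} {i | 1 < ρ (Fin.natAdd k i)}
      (fun l hl hlK => by
        rw [← ha']
        by_contra h3
        exact hlK ⟨not_lt.1 hl, not_le.1 h3⟩)
      (fun i hi => not_lt.1 hi) (fun l hl => by rw [← ha']; exact hl.1)
      (fun j => closure ((bad ι G {l | a l < -1} {i | 1 < ρ (Fin.natAdd k i)} ∪
          cross ι G {l | -1 ≤ a l ∧ a l < 0}) ∩ hitT (⋃ l, G l) (fun y => p (v y)) f f' j))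
      (fun _ => isClosed_closure)
      (fun j φ γ w h1 h2 h3 h4 h5 => subset_closure ⟨h5, hin_hitT h' j φ γ w h1 h2 h3 h4⟩)
    obtain ⟨J, hJ⟩ := h1.bddAbove
    refine ⟨J + 1, fun j hj => ?_⟩
    by_contra hcon
    have := hJ (show j ∈ _ from hcon)
    omega
  -- the second part
  have hp2 : ((∀ N, ∃ j ≥ N, HasRes (X j) ∨ ¬ DimLe (X (j + 1)) 1 {x | f' j x ∈ Amin (f j)}) ∨
      ∀ j, DimLe (X (j + 1)) 1 {x | f' j x ∈ Amin (f j) ∧ ¬ IsReg 4 (X (j + 1)) x ∧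
        (x ∈ Tot (Cor (⋃ l, G l) (fun y => p (v y)) f f' (j + 1))
          (closure ((bad ι G {l | a l < -1} {i | 1 < ρ (Fin.natAdd k i)} ∪
            cross ι G {l | -1 ≤ a l ∧ a l < 0}) ∩ {y | p (v y) ∈ hit f f'})) ∨
        x ∈ closure (Val (Cor (⋃ l, G l) (fun y => p (v y)) f f' (j + 1))
          (⋃ l ∈ {l | (-1 ≤ a l ∧ a l < 0) ∧ ZD (fun y => p (v y)) (hit f f') (G l)}, G l)))}) →
      ¬ ∃ J, ∀ j ≥ J,
        DimLe (X (j + 1)) 1 {x | BadPt {x | f' j x ∈ Amin (f j)}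
          (Cor (⋃ l, G l) (fun y => p (v y)) f f' (j + 1))
          ((bad ι G {l | a l < 0 ∧ (a l ≤ -1 ∨ ZT (⋃ l, G l) (fun y => p (v y)) f f' (G l))}
              {i | 1 ≤ ρ (Fin.natAdd k i)} ∪
            cross ι G {l | -1 < a l ∧ a l < 0}) ∩
              hitT (⋃ l, G l) (fun y => p (v y)) f f' j) x} ∧
        DimLe (X (j + 1)) 1 {x | f' j x ∈ Amin (f j) ∧ ¬ IsReg 4 (X (j + 1)) x ∧
          x ∈ Tot (Cor (⋃ l, G l) (fun y => p (v y)) f f' (j + 1))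
            (closure ((bad ι G {l | a l < -1} {i | 1 < ρ (Fin.natAdd k i)} ∪
              cross ι G {l | -1 ≤ a l ∧ a l < 0}) ∩
                hitT (⋃ l, G l) (fun y => p (v y)) f f' j))} := by
    rintro hor ⟨J₁, hcon⟩
    obtain ⟨J₃, hp1⟩ := hp1
    have hreg : ∃ J, ∀ j ≥ J, DimLe (X (j + 1)) 1
        {x | x ∈ f' j ⁻¹' Amin (f j) ∧ ¬ IsReg 4 (X (j + 1)) x} := by
      refine ⟨max J₁ J₃, fun j hj => ?_⟩
      refine (((hcon j (by omega)).2).union (hp1 j (by omega))).mono ?_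
      rintro x ⟨g1, g2⟩
      by_cases g4 : x ∈ Tot (Cor (⋃ l, G l) (fun y => p (v y)) f f' (j + 1))
          (closure ((bad ι G {l | a l < -1} {i | 1 < ρ (Fin.natAdd k i)} ∪
            cross ι G {l | -1 ≤ a l ∧ a l < 0}) ∩
              hitT (⋃ l, G l) (fun y => p (v y)) f f' j))
      · exact Or.inl ⟨g1, g2, g4⟩
      · exact Or.inr ⟨g1, g2, g4⟩
    have hP := hP8 h' ha' ⟨J₁, fun j hj => (hcon j hj).1⟩ hreg
    rcases hor with hr | h1
    · exact H371.T.fin_coreD H615.X.stContrS h.lb h.bd h.res h.ne h.c1 h.cmp h.corr h.flip hP hr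
    · have hreg' : ∀ j, DimLe (X (j + 1)) 1
          {x | x ∈ f' j ⁻¹' Amin (f j) ∧ ¬ IsReg 4 (X (j + 1)) x} := by
        refine stRegH Y χ k s M m ρ H ι sg W X Z r v p P G f f' A L' c' σ n t h'
          {l | a l < -1} {l | -1 ≤ a l ∧ a l < 0} {i | 1 < ρ (Fin.natAdd k i)}
          (fun l hl hlK => ?_) (fun i hi => not_lt.1 hi) (fun l hl => ?_) h1
        · rw [← ha']
          by_contra h3
          exact hlK ⟨not_lt.1 hl, not_le.1 h3⟩
        · rw [← ha']; exact hl.1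
      exact H371.G.fin_core stContr h.lb h.bd h.res h.ne h.c1 h.cmp h.corr h.flip hreg' hP
  refine ⟨hp1, hp2, fun hr hb hklt hd1 hd2 => ?_⟩
  by_contra hcen
  push Not at hcen
  have hcross : ∀ K : Set (Fin r), (∀ l ∈ K, a l < 0) → cross ι G K = ∅ := by
    intro K hK
    refine eq_empty_of_forall_notMem ?_
    rintro y ⟨l, hl, hy, ⟨l', hl', hne', hy'⟩ | ⟨i, hi⟩⟩
    · exact disjoint_left.1 (hd1 l' l hne' (hK l' hl') (hK l hl)) hy' hy
    · exact disjoint_left.1 (hd2 l i (hK l hl)) hy hi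
  have hneX : ∀ j, Nonempty (X j).pt := by
    intro j
    have h3 := (hflip j).ninj
    rw [Function.Injective] at h3
    push Not at h3
    obtain ⟨x, -⟩ := h3
    exact ⟨x⟩
  refine hp2 (Or.inl hr) ⟨0, fun j _ => ⟨?_, ?_⟩⟩
  · have := hneX (j + 1)
    refine dimLe_empty.mono ?_
    rintro x ⟨ξ, r', W', w₀, γ, ch, -, -, -, -, -, -, hw₀, h0, -, hγ⟩
    exfalso
    obtain ⟨hy, -⟩ := ((hγ w₀ hw₀).2.2.2.2.2 h0).1
    rw [hcross _ fun l hl => hl.2, union_empty] at hy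
    rcases hy with hy | hy
    · obtain ⟨l, hl, -⟩ := mem_iUnion₂.1 hy
      rcases hl.2 with h3 | h3
      · exact absurd (hklt l) (not_lt.2 h3)
      · exact hcen l hl.1 h3
    · obtain ⟨i, hi, -⟩ := mem_iUnion₂.1 hy
      exact absurd (hb i) (not_lt.2 hi)
  · have := hneX (j + 1)
    refine dimLe_empty.mono ?_
    rintro x ⟨-, -, hx⟩
    exfalso
    obtain ⟨y, hy, -⟩ := hx
    have h3 : (bad ι G {l | a l < -1} {i | 1 < ρ (Fin.natAdd k i)} ∪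
        cross ι G {l | -1 ≤ a l ∧ a l < 0}) = ∅ := by
      rw [hcross _ fun l hl => hl.2, union_empty]
      refine eq_empty_of_forall_notMem fun y hy => ?_
      rcases hy with hy | hy
      · obtain ⟨l, hl, -⟩ := mem_iUnion₂.1 hy
        exact lt_asymm (hklt l) hl
      · obtain ⟨i, hi, -⟩ := mem_iUnion₂.1 hy
        exact lt_asymm (hb i) hi
    rw [h3, empty_inter, closure_empty] at hy
    exact hy

end Vale.Agent.P277.H884.T
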