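import Vale.Agent.P277.H884.T.RegLoc
import Vale.Agent.P277.H884.T.FinCore6
import Vale.Agent.P277.H335.C.T6fin
import Vale.Agent.P277.H29.E.Eff2

/-!
# P277, (T6): the final form
-/

set_option maxSynthPendingDepth 3

open scoped Manifold ContDiff Topology
open Vale.Agent.P272.K Vale.Agent.P285.H281.FD Vale.Agent.P267.H175 Set Filter Metric

noncomputable section

namespace Vale.Agent.P277.H884.T

open Vale.Agent.P277 Vale.Agent.P277.T3 H615 H371.C H29.E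

section

variable {Y : Type} [TopologicalSpace Y] [T2Space Y] [CompactSpace Y]
    [ChartedSpace (Cm 4) Y] [IsManifold 𝓘(ℂ, Cm 4) ω Y]
    {χ : Chart 4 Y → Cm 4 → Matrix (Fin 4) (Fin 4) ℂ} {k s : ℕ}
    {M : Fin (k + s) → Bd Y} {m : Fin (k + s) → ℕ} {ρ : Fin (k + s) → ℝ} {H : Fin s → Type}
    [∀ i, TopologicalSpace (H i)] [∀ i, T2Space (H i)] [∀ i, CompactSpace (H i)]
    [∀ i, ConnectedSpace (H i)] [∀ i, ChartedSpace (Cm 3) (H i)]
    [∀ i, IsManifold 𝓘(ℂ, Cm 3) ω (H i)] {ι : ∀ i, H i → Y}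
    {sg : ∀ i : Fin s, (M (Fin.natAdd k i)).ι → Y → ℂ} {W : CSp} {X Z : ℕ → CSp} {r : ℕ}
    {v : Y → W.pt} {p : W.pt → (X 0).pt} {P : Bd W.pt} {G : Fin r → Set Y}
    {f : ∀ j, (X j).pt → (Z j).pt} {f' : ∀ j, (X (j + 1)).pt → (Z j).pt}
    {A : ∀ j, Set (Z j).pt} {L : ∀ j, Fin (k + s) → Bd (X j).pt} {c : ℕ → Fin (k + s) → ℕ}
    {σ : ∀ j, ∀ i : Fin s, (L j (Fin.natAdd k i)).ι → (X j).pt → ℂ}
    {n : Fin (k + s) → Fin r → ℤ} {t : ∀ e, (L 0 e).ι →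
      ((((Bd.can 4 Y).pow (m e)).mul (M e)).pow (c 0 e)).ι → Y → ℂ}

/-- the wedges over the flipped loci are centred in the preimage of `E 0` -/
theorem hin_of (h : IsPG χ M m ρ ι sg v p P G f f' A L c σ n t) {E : ∀ j, Set (X j).pt}
    (hE : FlipsIn f f' E) (j : ℕ) (φ : Cm 4 → (X (j + 1)).pt) (γ : Cm 4 → Y) (w : Cm 4)
    (hφ : ContinuousAt φ w) (hγ : ContinuousAt γ w) (hA : f' j (φ w) ∈ Amin (f j))
    (hfr : ∃ᶠ w' in 𝓝 w, Cor (⋃ l, G l) (fun y => p (v y)) f f' (j + 1) (γ w') (φ w')) :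
    γ w ∈ {y | p (v y) ∈ E 0} := by
  have h' := h.amin
  have hsm : ∀ j, IsSmall (X j) (Z j) (f j) (Amin (f j)) := fun j => (h'.flip j).flip.small
  have hsm' : ∀ j, IsSmall (X (j + 1)) (Z j) (f' j) (Amin (f j)) := fun j =>
    (h'.flip j).flip.small'
  have hvc : Continuous fun y => p (v y) := h.res.cont.comp (continuousOn_univ.1 h.res.emb.cont)
  by_contra hy
  obtain ⟨x', -, hx', hcv⟩ := cont_off' (D := ⋃ l, G l) hsm hsm' hE hvc hy j
  have h4 := eq_of_cv hφ hγ hfr hcv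
  rw [h4] at hA
  exact hx' hA

/-- the image of the correspondence is dense -/
theorem cor_dense (h : IsPG χ M m ρ ι sg v p P G f f' A L c σ n t) (j : ℕ) :
    Dense {x | ∃ y, Cor (⋃ l, G l) (fun y => p (v y)) f f' (j + 1) y x} ∧
    ∀ i : Fin s, zer (L (j + 1) (Fin.natAdd k i)) (σ (j + 1) i) ⊆
      Str (Cor (⋃ l, G l) (fun y => p (v y)) f f' (j + 1)) (range (ι i)) := by
  have h' := h.amin
  have hsm : ∀ j, IsSmall (X j) (Z j) (f j) (Amin (f j)) := fun j => (h'.flip j).flip.small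
  have hsm' : ∀ j, IsSmall (X (j + 1)) (Z j) (f' j) (Amin (f j)) := fun j =>
    (h'.flip j).flip.small'
  have hres := h.res
  have hseq := isSeq_sq hsm hsm' hres.emb' (by
    refine (hres.dim).mono ?_
    intro x hx
    obtain ⟨w, rfl⟩ := hres.psurj x
    obtain ⟨y, rfl⟩ := hres.surj w
    refine ⟨y, ?_, rfl⟩
    by_contra hy
    exact hx ⟨y, hy, rfl⟩)
  have hcor : ∀ j y x, Cor (⋃ l, G l) (fun y => p (v y)) f f' j y x ↔
      y ∈ (sq f hsm' (⋃ l, G l)ᶜ (fun y => p (v y)) j).1 ∧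
        (sq f hsm' (⋃ l, G l)ᶜ (fun y => p (v y)) j).2 y = x := fun j y x =>
    H884.G.cor_iff (D := ⋃ l, G l) (v₀ := fun y => p (v y))
      (O := fun j => (sq f hsm' (⋃ l, G l)ᶜ (fun y => p (v y)) j).1)
      (v := fun j => (sq f hsm' (⋃ l, G l)ᶜ (fun y => p (v y)) j).2) rfl rfl (fun j => by
        rw [hseq.step j]
        rfl)
      hseq.comp (fun j x x' h4 h5 => (hsm' j).inj _ _ h4 h5) j y x
  have hnor : IsNormal 4 (X (j + 1)) := (h'.flip j).flip.normal'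
  constructor
  · have h3 := dense_compl_of_dimLe (by norm_num) hnor.dense (hseq.dim (j + 1))
    rw [compl_compl] at h3
    refine h3.mono ?_
    rintro _ ⟨y, hy, rfl⟩
    exact ⟨y, (hcor (j + 1) y _).2 ⟨hy, rfl⟩⟩
  · intro i
    have hl : ∀ y : Y, ∃ e : Chart 4 Y, At e y := fun y =>
      ⟨chartAt (Cm 4) y, chart_mem_atlas _ y, mem_chart_source _ y⟩
    have hstr := H371.G.isStrG hl h.lb h.bd h.c1 h.cmp h.corr h'.flip hseq rfl rfl i
    refine (zer_sub_closure hnor (hseq.dim (j + 1)) ((h'.flip (j + 1)).flip.lb _)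
      ((h'.flip (j + 1)).sec i)).trans ?_
    refine closure_mono ?_
    rintro _ ⟨hx, y, hy, rfl⟩
    exact ⟨y, (hstr.mem (j + 1) y hy).1 hx, (hcor (j + 1) y _).2 ⟨hy, rfl⟩⟩

end

/-- (T6F) -/
theorem stT6F : T3.StT6F := by
  intro Y _ _ _ _ _ χ hχ k s M hM hnef m hm hm0 ρ hρ hsum H _ _ _ _ _ _ ι sg hbd hdisj W X Z r
    v p P G hres hne f f' A L c hc n hn hflip E₀ hE a ha
  obtain ⟨E, rfl, hE'⟩ : ∃ E : ∀ j, Set (X j).pt, E 0 = E₀ ∧ FlipsIn f f' E := by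
    rcases hE with hE | hE
    · exact flipsIn_of_eff hc hflip hE
    · exact hE
  obtain ⟨L', c', σ, t, hc', hcmp, hcorr, hcc, hfl⟩ :=
    H371.G.wrap_core (ι := ι) hM hm0 hbd hres hc hn hflip
  have h' : IsPG χ M m ρ ι sg v p P G f f' A L' c' σ n t :=
    ⟨hχ, hM, hnef, hm, hm0, hρ, hsum, hbd, hdisj, hres, hne, hc', hcmp, hcorr, hfl⟩
  have ha' : ∀ l, a l = ∑ e, ρ e * n e l / c' 0 e := by
    intro l
    simp only [hcc]
    exact ha l
  set Eh : Set Y := {y | p (v y) ∈ E 0} with hEh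
  have hvc : Continuous fun y => p (v y) := hres.cont.comp (continuousOn_univ.1 hres.emb.cont)
  have hEc : IsClosed Eh := (isClosed_of_isAn hE'.an).preimage hvc
  have hEan : ∀ y, T3.IsAnAt 4 Eh y := isAnAt_pre hres hE'.an
  -- the first part
  have hp1 : ∃ J, ∀ j ≥ J, DimLe (X (j + 1)) 1 {x | f' j x ∈ Amin (f j) ∧
      ¬ IsReg 4 (X (j + 1)) x ∧ x ∉ Tot (Cor (⋃ l, G l) (fun y => p (v y)) f f' (j + 1))
        ((bad ι G {l | a l < -1} {i | 1 < ρ (Fin.natAdd k i)} ∪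
          cross ι G {l | -1 ≤ a l ∧ a l < 0}) ∩ Eh)} := by
    have h1 := H335.CC.stT6finC Y χ k s M m ρ H ι sg W X Z r v p P G f f' A L' c' σ n t h'
      {l | a l < -1} {l | -1 ≤ a l ∧ a l < 0} {i | 1 < ρ (Fin.natAdd k i)}
      (fun l hl hlK => by
        rw [← ha']
        by_contra h3
        exact hlK ⟨not_lt.1 hl, not_le.1 h3⟩)
      (fun i hi => not_lt.1 hi) (fun l hl => by rw [← ha']; exact hl.1) Eh hEc
      (fun j φ γ w h1 h2 h3 h4 => hin_of h' hE' j φ γ w h1 h2 h3 h4)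
    obtain ⟨J, hJ⟩ := h1.bddAbove
    refine ⟨J + 1, fun j hj => ?_⟩
    by_contra hcon
    have := hJ (show j ∈ _ from hcon)
    omega
  refine ⟨hp1, fun hr hcon => ?_⟩
  obtain ⟨⟨J₁, h1⟩, ⟨J₂, h2⟩, h3⟩ := hcon
  obtain ⟨J₃, hp1⟩ := hp1
  have h := h'.amin
  have hneY : Nonempty Y := by
    have h3 := (h.flip 0).flip.ninj
    rw [Function.Injective] at h3
    push Not at h3
    obtain ⟨x, -⟩ := h3
    obtain ⟨w, -⟩ := hres.psurj x
    obtain ⟨y, -⟩ := hres.surj w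
    exact ⟨y⟩
  refine fin_core6 stContr h.lb h.bd h.res h.ne h.c1 h.cmp h.corr h.flip (fun i _ j => ?_)
    (H335.MM.stP7M Y χ k s M m ρ H ι sg W X Z r v p P G f f' _ L' c' σ n t h
      {l | a l < 0 ∧ (a l ≤ -1 ∨ G l ⊆ Eh)} {l | (-1 < a l ∧ a l < 0) ∧ ¬ G l ⊆ Eh}
      {i | 1 ≤ ρ (Fin.natAdd k i)} (fun l hl hlK => ?_) (fun l hl => ?_) (fun i hi => not_le.1 hi)
      Eh hEc (fun l hl => ?_) (fun l hl => ?_) (max J₁ (max J₂ J₃)) (fun j hj => ?_)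
      fun j hj => ?_) hr
  · -- regularity along the boundary
    have h4 := regLocE Y χ k s M m ρ H ι sg W X Z r v p P G f f' A L' c' σ n t h' E hE'
      {l | a l < -1} {l | -1 ≤ a l ∧ a l < 0} {i | 1 < ρ (Fin.natAdd k i)}
      (fun l hl hlK => by
        rw [← ha']
        by_contra h3
        exact hlK ⟨not_lt.1 hl, not_le.1 h3⟩)
      (fun i hi => not_lt.1 hi) (fun l hl => by rw [← ha']; exact hl.1) j
    refine (h4.union (h3 i j)).mono ?_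
    rintro x ⟨g1, g2, g3⟩
    by_cases g4 : x ∈ Tot (Cor (⋃ l, G l) (fun y => p (v y)) f f' (j + 1))
        ((bad ι G {l | a l < -1} {i | 1 < ρ (Fin.natAdd k i)} ∪
          cross ι G {l | -1 ≤ a l ∧ a l < 0}) ∩ Eh) ∪
        closure (Val (Cor (⋃ l, G l) (fun y => p (v y)) f f' (j + 1))
          (⋃ l ∈ {l | (-1 ≤ a l ∧ a l < 0) ∧ G l ⊆ Eh}, G l))
    · exact Or.inr ⟨g1, g3, (cor_dense h' j).2 i g2, g4⟩
    · exact Or.inl ⟨g1, g3, g4⟩
  · rw [← ha']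
    by_contra h3
    have h4 := not_le.1 h3
    by_cases h5 : a l ≤ -1
    · exact hl ⟨h4, Or.inl h5⟩
    · by_cases h6 : G l ⊆ Eh
      · exact hl ⟨h4, Or.inr h6⟩
      · exact hlK ⟨⟨not_le.1 h5, h4⟩, h6⟩
  · rw [← ha']; exact hl.1.1
  · exact sub_closure_an (hres.hyp l) (hres.conn l) hEc hEan hl.2
  · exact H335.MM.stSurf (hres.hyp l) (hres.closed l) hEc hEan
      (sub_closure_an (hres.hyp l) (hres.conn l) hEc hEan hl.2)
  · refine ((h2 j (by omega)).union (hp1 j (by omega))).mono ?_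
    rintro x ⟨g1, g2⟩
    by_cases g4 : x ∈ Tot (Cor (⋃ l, G l) (fun y => p (v y)) f f' (j + 1))
        ((bad ι G {l | a l < -1} {i | 1 < ρ (Fin.natAdd k i)} ∪
          cross ι G {l | -1 ≤ a l ∧ a l < 0}) ∩ Eh)
    · exact Or.inl ⟨g1, g2, g4⟩
    · exact Or.inr ⟨g1, g2, g4⟩
  · refine (h1 j (by omega)).mono fun x hx => badPt_mono ?_ (cor_dense h' j).1 hx
    intro φ γ w hφ hγ hS hB hfr
    have h3 : γ w ∈ Eh := hin_of h' hE' j φ γ w hφ hγ hS hfr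
    refine ⟨?_, h3⟩
    rcases hB with hB | hB
    · exact hB
    · obtain ⟨l, hl, h5⟩ := mem_iUnion₂.1 hB
      exact (h5.2 h3).elim

end Vale.Agent.P277.H884.T
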