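import Vale.Agent.P277.Stmts27
import Vale.Agent.P277.H371.C.FinB

/-!
# P277, T6: the zero set of a section is the closure of its intersection with a big open subset
-/

open scoped Manifold ContDiff Topology
open Vale.Agent.P272.K Vale.Agent.P285.H281.FD Vale.Agent.P267.H175 Set Filter

noncomputable section

namespace Vale.Agent.P277.H884.T

open Vale.Agent.P277 Vale.Agent.P277.T3 H371.C

theorem zer_sub_closure {Y : Type} [TopologicalSpace Y] [ChartedSpace (Cm 4) Y] {X : CSp}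
    (hX : IsNormal 4 X) {O : Set Y} {v : Y → X.pt} (hd : DimLe X 2 (v '' O)ᶜ)
    {L : Bd X.pt} (hL : IsLBx X L) {σ : L.ι → X.pt → ℂ} (hσ : IsSecx X univ L σ) :
    zer L σ ⊆ closure (zer L σ ∩ v '' O) := by
  intro x hx
  by_contra hcl
  obtain ⟨a, ha⟩ := hL.cover x
  set V : Set X.pt := (closure (zer L σ ∩ v '' O))ᶜ ∩ L.U a with hV
  have hVo : IsOpen V := isClosed_closure.isOpen_compl.inter (hL.isOpen a)
  have hxV : x ∈ V := ⟨hcl, ha⟩
  set E : Set X.pt := {y | σ a y = 0} with hE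
  have hVE : V ∩ E ⊆ (v '' O)ᶜ := by
    rintro y ⟨⟨hy1, hy2⟩, hy3⟩ hy4
    exact hy1 (subset_closure ⟨(mem_zer hσ hy2).2 hy3, hy4⟩)
  have hdim : DimLe X 2 (V ∩ E) := hd.mono hVE
  obtain ⟨g, hg, hgf⟩ := hX.ext V E hVo (fun y hy => ⟨1, fun _ => σ a, fun _ =>
    hσ.holo a y (mem_univ _) hy.2, Eventually.of_forall fun z => ⟨fun h _ => h, fun h => h 0⟩⟩)
    (by simpa using hdim) (fun y => (σ a y)⁻¹) fun y hy =>
      hol_inv (hσ.holo a y (mem_univ _) hy.1.2) hy.2
  have hden : x ∈ closure (V \ E) := by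
    have h1 := dense_compl_of_dimLe (by norm_num) hX.dense hdim
    have h2 := h1.open_subset_closure_inter hVo hxV
    refine closure_mono ?_ h2
    rintro y ⟨hy1, hy2⟩
    exact ⟨hy1, fun h => hy2 ⟨hy1, h⟩⟩
  have hc : ContinuousAt (fun y => g y * σ a y) x :=
    (hol_continuousAt (hg x hxV)).mul (hol_continuousAt (hσ.holo a x (mem_univ _) ha))
  have h3 : (fun y => g y * σ a y) x = 1 := by
    by_contra hne
    have h4 := hc.eventually_ne hne
    obtain ⟨y, hy1, hy2⟩ := ((mem_closure_iff_frequently.1 hden).and_eventually h4).exists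
    refine hy2 ?_
    show g y * σ a y = 1
    rw [hgf y hy1]
    exact inv_mul_cancel₀ hy1.2
  have h5 : σ a x = 0 := hx a ha
  simp only [h5, mul_zero] at h3
  exact zero_ne_one h3

end Vale.Agent.P277.H884.T
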