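import Vale.Agent.P277.H29.E.RegE
import Vale.Agent.P277.H335.C.Loc
import Vale.Agent.P277.H884.T.ZerStr

/-!
# P277, T6: regularity outside the total transform and the centres
-/

open scoped Manifold ContDiff Topology
open Vale.Agent.P272.K Vale.Agent.P285.H281.FD Vale.Agent.P267.H175 Set Metric Filter

noncomputable section

namespace Vale.Agent.P277.H884.T

open Vale.Agent.P277 Vale.Agent.P277.T2 Vale.Agent.P277.H335 Vale.Agent.P277.H615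
open Vale.Agent.P277.H335.RR Vale.Agent.P277.H335.KK Vale.Agent.P277.H29.E

/-- REG core, local version -/
theorem regCoreLoc {Y : Type} [TopologicalSpace Y] [T2Space Y] [CompactSpace Y]
    [ChartedSpace (Cm 4) Y] [IsManifold 𝓘(ℂ, Cm 4) ω Y]
    {χ : Chart 4 Y → Cm 4 → Matrix (Fin 4) (Fin 4) ℂ}
    (hχ : IsKahler χ) {k : ℕ} {M : Fin k → Bd Y} (hM : ∀ e, IsLB 4 (M e)) (hNef : ∀ e, Nef χ (M e))
    {m : Fin k → ℕ} (hm : ∀ e, 1 ≤ m e) {ρ : Fin k → ℝ} (hρ : ∀ e, 0 < ρ e)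
    (hρm : ∑ e, ρ e * m e = 1)
    {X : CSp} (hX : IsNormal 4 X) {O : Set Y} {v : Y → X.pt} (hv : IsOpenEmb X O v)
    (hO : DimLe X 2 (v '' O)ᶜ) {L : Fin k → Bd X.pt} (hL : ∀ e, IsLBx X (L e)) {Q : Fin k → ℕ}
    (hQ : ∀ e, 1 ≤ Q e)
    {T : ∀ e, (L e).ι → ((((Bd.can 4 Y).pow (m e)).mul (M e)).pow (Q e)).ι → Y → ℂ}
    (hT : ∀ e, IsIsoY O v (L e) ((((Bd.can 4 Y).pow (m e)).mul (M e)).pow (Q e)) (T e))
    {S : Set X.pt} (hSan : IsAn X univ S) (hSO : S ⊆ (v '' O)ᶜ) {Nc : Set X.pt}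
    (hNc : IsClosed Nc)
    (hlifts : ∀ (W : Set (Cm 4)) (w₀ : Cm 4) (φ : Cm 4 → X.pt), IsOpen W → w₀ ∈ W → w₀ 0 = 0 →
      (∀ w ∈ W, HolAt X φ w) → (∀ w ∈ W, w 0 = 0 → φ w ∈ S) → (∀ w ∈ W, φ w ∉ Nc) →
      W ⊆ closure {w | w ∈ W ∧ φ w ∈ v '' O} →
      ∃ w₁ ∈ W, w₁ 0 = 0 ∧ LiftV O v L M m Q T ρ φ w₁) :
    DimLe X 1 {x | x ∈ S ∧ ¬ IsReg 4 X x ∧ x ∉ Nc} := by
  have hS2 : DimLe X 2 S := hO.mono hSO
  refine H335.CC.sing_loc hX hv hO hSan hS2 hNc.isOpen_compl fun U₀ hUN hU₀ hS1 => ?_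
  obtain ⟨V', G, c, r, d, lam, θ, n, ζ, hVU, hg, hζ⟩ := TX.stMinLoc_final Y X hX O v hv
    hO S hSan U₀ hU₀ (fun x hx => hSO hx.1) hS1
  have hd : d = 1 := RC.sharpV hX hχ hM hNef hm hρ hρm hv hO hSan hS2 hL hQ hT hg hζ
    fun W w₀ φ hW hw₀ h0 hφ hS hcl hV =>
      hlifts W w₀ φ hW hw₀ h0 hφ hS (fun w hw => hUN (hVU (hV w hw))) hcl
  subst hd
  have hc := hg.toIsCov
  obtain ⟨x, hxV, hxc⟩ := (hc.finite c (mem_ball_self hc.pos)).2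
  have hxS : x ∈ S := (hg.memS x hxV).2 (by rw [hxc]; exact ⟨hg.c0, hg.c1⟩)
  obtain ⟨s, hs1, hs2⟩ := (H335.IsCov.toPre hc).sec_of_one (fun a ha b hb hab hθ => by
    obtain ⟨y, hy⟩ := hc.enum (G a) (hc.maps a ha) hθ
    obtain ⟨k, hk⟩ := (hy.2 a).2 ⟨ha, rfl⟩
    obtain ⟨l, hl⟩ := (hy.2 b).2 ⟨hb, hab.symm⟩
    rw [← hk, ← hl, Subsingleton.elim k l]) ⟨x, hxV⟩ hζ
  exact ⟨x, ⟨hxS, hVU hxV⟩, H371.isReg_of_sec hc.holo ⟨V', s, hc.isOpen, hxV, Subset.rfl,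
    hc.openMap _ Subset.rfl hc.isOpen, fun y hy => ⟨hs2 y hy, (hs1 _ (hc.maps y hy)).2.2⟩⟩⟩

/-- the flipped surfaces outside the total transform and the centres are generically regular -/
theorem regLocE (Y : Type) [TopologicalSpace Y] [T2Space Y] [CompactSpace Y]
    [ChartedSpace (Cm 4) Y]
    [IsManifold 𝓘(ℂ, Cm 4) ω Y] (χ : Chart 4 Y → Cm 4 → Matrix (Fin 4) (Fin 4) ℂ) (k s : ℕ)
    (M : Fin (k + s) → Bd Y) (m : Fin (k + s) → ℕ) (ρ : Fin (k + s) → ℝ) (H : Fin s → Type)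
    [∀ i, TopologicalSpace (H i)] [∀ i, T2Space (H i)] [∀ i, CompactSpace (H i)]
    [∀ i, ConnectedSpace (H i)] [∀ i, ChartedSpace (Cm 3) (H i)]
    [∀ i, IsManifold 𝓘(ℂ, Cm 3) ω (H i)] (ι : ∀ i, H i → Y)
    (sg : ∀ i : Fin s, (M (Fin.natAdd k i)).ι → Y → ℂ) (W : CSp) (X Z : ℕ → CSp) (r : ℕ)
    (v₀ : Y → W.pt) (p : W.pt → (X 0).pt) (P : Bd W.pt) (G : Fin r → Set Y)
    (f : ∀ j, (X j).pt → (Z j).pt) (f' : ∀ j, (X (j + 1)).pt → (Z j).pt)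
    (A : ∀ j, Set (Z j).pt) (L : ∀ j, Fin (k + s) → Bd (X j).pt) (c : ℕ → Fin (k + s) → ℕ)
    (σ : ∀ j, ∀ i : Fin s, (L j (Fin.natAdd k i)).ι → (X j).pt → ℂ)
    (n : Fin (k + s) → Fin r → ℤ) (t : ∀ e, (L 0 e).ι →
      ((((Bd.can 4 Y).pow (m e)).mul (M e)).pow (c 0 e)).ι → Y → ℂ)
    (h : T3.IsPG χ M m ρ ι sg v₀ p P G f f' A L c σ n t)
    (E : ∀ j, Set (X j).pt) (hE : T3.FlipsIn f f' E)
    (I K : Set (Fin r)) (I' : Set (Fin s))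
    (hI : ∀ l, l ∉ I → l ∉ K → 0 ≤ ∑ e, ρ e * n e l / c 0 e)
    (hI' : ∀ i ∉ I', ρ (Fin.natAdd k i) ≤ 1) (hK1 : ∀ l ∈ K, -1 ≤ ∑ e, ρ e * n e l / c 0 e)
    (j : ℕ) :
    DimLe (X (j + 1)) 1 {x | x ∈ f' j ⁻¹' Amin (f j) ∧ ¬ IsReg 4 (X (j + 1)) x ∧
      x ∉ T3.Tot (T3.Cor (⋃ l, G l) (fun y => p (v₀ y)) f f' (j + 1))
        ((T3.bad ι G I I' ∪ T3.cross ι G K) ∩ {y | p (v₀ y) ∈ E 0}) ∪
        closure (T3.Val (T3.Cor (⋃ l, G l) (fun y => p (v₀ y)) f f' (j + 1))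
          (⋃ l ∈ {l | l ∈ K ∧ G l ⊆ {y | p (v₀ y) ∈ E 0}}, G l))} := by
  have hsum : ∑ e : Fin k, ρ (Fin.castAdd s e) * m (Fin.castAdd s e) = 1 := by
    have h1 := h.sum
    rw [Fin.sum_univ_add] at h1
    simpa only [h.m0, Nat.cast_zero, mul_zero, Finset.sum_const_zero, add_zero] using h1
  have hk : 1 ≤ k := by
    rcases Nat.eq_zero_or_pos k with rfl | h1
    · simp at hsum
    · exact h1
  set Nb : Set Y := T3.bad ι G I I' ∪ T3.cross ι G K with hNb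
  have hn : ∀ l ∉ K, 0 ≤ ∑ e, ρ e * n e l / c 0 e ∨ G l ⊆ Nb := by
    intro l hlK
    by_cases hl : l ∈ I
    · exact Or.inr fun y hy => Or.inl (Or.inl (mem_iUnion₂.2 ⟨l, hl, hy⟩))
    · exact Or.inl (hI l hl hlK)
  have hn' : ∀ l, 0 ≤ ∑ e, ρ e * n e l / c 0 e ∨ G l ⊆ (univ : Set Y) := fun l =>
    Or.inr (subset_univ _)
  have hrc : ∀ i, IsClosed (range (ι i)) := fun i =>
    (isCompact_range (h.bd i).sub.cont).isClosed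
  have hbc : IsClosed Nb := (T3.isClosed_bad h.res.closed fun i => (h.bd i).sub.cont).union
    (isClosed_cross h.res.closed hrc)
  obtain ⟨O, v, P', Q', T, hT⟩ := H884.G.exists_twSeqG H884.stL0 (by omega) h.lb h.res h.c1 h.cmp
    h.corr hn' h.flip
  obtain ⟨pp, qq, s', a, hf, d, b, -, -, -, -, -, -, -, -, -⟩ := hT.step j
  have hTw := hT.tw j
  have hch := exists_chainK H884.stL0 (by omega) (h.flip 0).flip.normal h.lb h.res h.cmp hT j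
  have hsub := hT.sub_compl j
  have hdn : ∀ i, range (ι i) ⊆ closure (range (ι i) ∩ O (j + 1)) := by
    intro i
    have hne : Nonempty Y := ⟨ι i (Classical.arbitrary (H i))⟩
    exact (hyp_dense h.res.emb h.res.hyp h.res.closed (isHyp_of_bd (h.lb _) (h.bd i))
      (isPreconnected_range (h.bd i).sub.cont)
      (fun l hl => h.ne i (hl.trans (subset_iUnion G l)))
      (hTw.tw ⟨0, by omega⟩).emb.isOpen (hTw.tw ⟨0, by omega⟩).thin).2.1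
  have hS : ∀ i : Fin s, SecRel (L (j + 1) (Fin.natAdd k i))
      (((Bd.can 4 Y).pow (m (Fin.natAdd k i))).mul (M (Fin.natAdd k i))) (O (j + 1)) (v (j + 1))
      (P' (j + 1) (Fin.natAdd k i)) (Q' (j + 1) (Fin.natAdd k i)) (T (j + 1) (Fin.natAdd k i))
      (fun b y => sg i b.2 y) := by
    intro i
    have h1 := (h.flip (j + 1)).sec i
    refine ⟨fun a x => σ (j + 1) i a x ^ P' (j + 1) (Fin.natAdd k i),
      ⟨fun a x hx ha => hol_pow (h1.holo a x hx ha) _, fun a b x hx ha hb => ?_⟩, ?_⟩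
    · show σ (j + 1) i a x ^ P' (j + 1) (Fin.natAdd k i) = (L (j + 1) (Fin.natAdd k i)).g a b x ^
        P' (j + 1) (Fin.natAdd k i) * σ (j + 1) i b x ^ P' (j + 1) (Fin.natAdd k i)
      rw [h1.change a b x hx ha hb, mul_pow]
    · rintro y hy a ⟨ch, b⟩ ha ⟨hb1, hb2⟩
      rw [mul_comm]
      exact hT.sec (j + 1) i y a ch b hy ha hb1 hb2
  have hlt : ∀ i : Fin s, ρ (Fin.natAdd k i) ≤ 1 ∨ range (ι i) ⊆ Nb := by
    intro i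
    by_cases hi : i ∈ I'
    · exact Or.inr fun y hy => Or.inl (Or.inr (mem_iUnion₂.2 ⟨i, hi, hy⟩))
    · exact Or.inl (hI' i hi)
  have hK2 : ∀ l ∈ K, ∀ l' ∈ K, l ≠ l' → G l ∩ G l' ⊆ Nb := fun l hl l' hl' hll y hy =>
    Or.inr ⟨l, hl, hy.1, Or.inl ⟨l', hl', hll.symm, hy.2⟩⟩
  have hlt' : ∀ l ∈ K, ∀ i, G l ∩ range (ι i) ⊆ Nb := fun l hl i y hy =>
    Or.inr ⟨l, hl, hy.1, Or.inr ⟨i, hy.2⟩⟩
  set Cr := T3.Cor (⋃ l, G l) (fun y => p (v₀ y)) f f' (j + 1) with hCr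
  -- the preimage of `E 0`
  have hsm : ∀ j, IsSmall (X j) (Z j) (f j) (Amin (f j)) := fun j => by
    obtain ⟨pp, qq, s', a, hf, -⟩ := hT.step j
    exact hf.small
  have hsm' : ∀ j, IsSmall (X (j + 1)) (Z j) (f' j) (Amin (f j)) := fun j => by
    obtain ⟨pp, qq, s', a, hf, -⟩ := hT.step j
    exact hf.small'
  have hvc : Continuous fun y => p (v₀ y) := h.res.cont.comp (continuousOn_univ.1 h.res.emb.cont)
  set Eh : Set Y := {y | p (v₀ y) ∈ E 0} with hEh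
  have hEc : IsClosed Eh := (isClosed_of_isAn hE.an).preimage hvc
  have hEan : ∀ y, T3.IsAnAt 4 Eh y := isAnAt_pre h.res hE.an
  have hin : ∀ (W₁ : Set (Cm 4)) (φ : Cm 4 → (X (j + 1)).pt) (γ : Cm 4 → Y) (w : Cm 4),
      w ∈ W₁ → ContinuousAt φ w → ContinuousAt γ w →
      W₁ ⊆ closure {w | w ∈ W₁ ∧ φ w ∈ v (j + 1) '' O (j + 1)} →
      (∀ w ∈ W₁, φ w ∈ v (j + 1) '' O (j + 1) → γ w ∈ O (j + 1)) →
      (∀ w ∈ W₁, γ w ∈ O (j + 1) → v (j + 1) (γ w) = φ w) → φ w ∈ f' j ⁻¹' Amin (f j) →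
      γ w ∈ Eh := by
    intro W₁ φ γ w hw hφ hγ hcl hO1 hO2 hA
    by_contra hy
    obtain ⟨x', -, hx', hcv⟩ := cont_off' (D := ⋃ l, G l) hsm hsm' hE hvc hy j
    have hfr : ∃ᶠ w' in 𝓝 w, Cr (γ w') (φ w') := by
      refine (mem_closure_iff_frequently.1 (hcl hw)).mono fun w' hw' => ?_
      have h1 := hO1 w' hw'.1 hw'.2
      exact (cor_iff' hT (j + 1) _ _).2 ⟨h1, hO2 w' hw'.1 h1⟩
    have h1 := eq_of_cv hφ hγ hfr hcv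
    rw [h1] at hA
    exact hx' hA
  refine regCoreLoc h.kahler (M := fun e => M (Fin.castAdd s e)) (fun e => h.lb _) h.nef
    (m := fun e => m (Fin.castAdd s e)) h.pos (ρ := fun e => ρ (Fin.castAdd s e))
    (fun e => h.rho _) hsum
    hf.normal' (hTw.tw ⟨0, by omega⟩).emb (hTw.tw ⟨0, by omega⟩).dim
    (L := fun e => (L (j + 1) (Fin.castAdd s e)).pow (P' (j + 1) (Fin.castAdd s e)))
    (fun e => (hTw.tw _).lb) (Q := fun e => Q' (j + 1) (Fin.castAdd s e))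
    (fun e => (hTw.tw _).hQ)
    (T := fun e => T (j + 1) (Fin.castAdd s e)) (fun e => (hTw.tw _).iso)
    (IsAn.preimage (fun x => hf.small'.holMap x) hf.small'.an) hsub
    (Nc := T3.Tot Cr (Nb ∩ Eh) ∪ closure (T3.Val Cr (⋃ l ∈ {l | l ∈ K ∧ G l ⊆ Eh}, G l)))
    ((H884.G.isClosed_tot _ (hbc.inter hEc)).union isClosed_closure) ?_
  intro B w₀ φ hB hw₀ h0 hφ hSc hN' hcl
  refine liftV_of_chainE (S := f' j ⁻¹' Amin (f j))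
    (Nc := T3.Tot Cr (Nb ∩ Eh) ∪ closure (T3.Val Cr (⋃ l ∈ {l | l ∈ K ∧ G l ⊆ Eh}, G l)))
    (N := Nb) (a := fun l => ∑ e, ρ e * n e l / c 0 e) (Ks := K)
    h.lb hTw.tw hTw.lb ?_ hn hK1 hK2 hlt' h.rho hlt h.bd h.disj hdn hS hsub hB hw₀ h0 hφ hSc hN'
    hcl ?_
  · intro W w₀ γ' i hW hw₀ h0 hγ hcl hi hSN
    obtain ⟨w₁, hw₁, hw₁0, W₁, γ₀, ch, cc, q, g1, g2, g3, g4, g5, g6, g7, b₀, g8, -, g9⟩ :=
      hch W w₀ γ' i hW hw₀ h0 hγ hcl hi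
    have hcl₁ := subset_closure_of_open g1 g3 hcl
    have hb : ∀ w ∈ W₁, w 0 = 0 → γ₀ w ∉ Nb := by
      intro w hw hw0 hNb
      have h1 : γ₀ w ∈ Eh := hin W₁ γ' γ₀ w hw (hγ w (g3 hw)).1 (g4 w hw).1 hcl₁ g5 g6
        (hSN w (g3 hw) hw0).1
      exact H884.G.notMem_of_tot (fun y hy => (cor_iff' hT (j + 1) y _).2 ⟨hy, rfl⟩)
        hcl₁ g5 g6 hw (g4 w hw).1 (hγ w (g3 hw)).1
        (fun h => (hSN w (g3 hw) hw0).2 (Or.inl h)) ⟨hNb, h1⟩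
    exact ⟨w₁, hw₁, hw₁0, W₁, γ₀, ch, cc, q, g1, g2, g3, g4, g5, g6, g7,
      ⟨b₀, g8, g9 (fun w hw hw0 => (hSN w hw hw0).1)⟩, hb⟩
  · rintro W₁ γ w₂ hW₁ hw₂ hW₁W hγc hO1 hO2 l hl hlG hev hopen
    by_cases hGE : G l ⊆ Eh
    · refine Or.inr (subset_closure ⟨γ w₂, mem_iUnion₂.2 ⟨l, ⟨hl, hGE⟩, hlG⟩, fun U hU => ?_⟩)
      have h1 : γ '' (φ ⁻¹' U ∩ W₁) ∈ 𝓝 (γ w₂) :=
        hopen (image_mem_map (inter_mem ((hφ w₂ (hW₁W hw₂)).1.preimage_mem_nhds hU)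
          (hW₁.mem_nhds hw₂)))
      filter_upwards [h1]
      rintro y' ⟨w', ⟨h2, h3⟩, rfl⟩ x' hx'
      obtain ⟨h4, rfl⟩ := (cor_iff' hT (j + 1) _ _).1 hx'
      rw [hO2 w' h3 h4]
      exact h2
    · exfalso
      have h1 : γ '' ({w | γ w ∈ G l → w 0 = 0} ∩ W₁) ∈ 𝓝 (γ w₂) :=
        hopen (image_mem_map (inter_mem hev (hW₁.mem_nhds hw₂)))
      have h2 := sub_closure_an (h.res.hyp l) (h.res.conn l) hEc hEan hGE hlG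
      obtain ⟨y, ⟨w, ⟨hw1, hw2⟩, rfl⟩, hy1, hy2⟩ := mem_closure_iff_nhds.1 h2 _ h1
      exact hy2 (hin W₁ φ γ w hw2 (hφ w (hW₁W hw2)).1 (hγc w hw2)
        (subset_closure_of_open hW₁ hW₁W hcl) hO1 hO2 (hSc w (hW₁W hw2) (hw1 hy1)))

end Vale.Agent.P277.H884.T
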