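import Vale.Agent.P277.H335.C.StageX
import Vale.Agent.P277.H335.C.T6fin
import Vale.Agent.P277.H335.K.RegL
import Vale.Agent.P277.H335.M.CountM
import Vale.Agent.P277.H615.E.StD

/-!
# P277, (T6): the flipped surfaces are generically regular, after finitely many flips
-/

open scoped Manifold ContDiff Topology
open Vale.Agent.P272.K Vale.Agent.P285.H281.FD Vale.Agent.P267.H175 Set Filter Metric

noncomputable section

namespace Vale.Agent.P277.H884.T

open Vale.Agent.P277 Vale.Agent.P277.T2 Vale.Agent.P277.H335 Vale.Agent.P277.T3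
open Vale.Agent.P277.H615 Vale.Agent.P277.H335.KK Vale.Agent.P277.H335.RR Vale.Agent.P277.H335.CC
open Vale.Agent.P277.H884.N (stWgBase1 stWgStep1 stWgTrans1)

/-- (T6) For all but finitely many `j`, the space `X (j + 1)` is regular at the generic points of the
flipped surfaces which are not contained in the total transform of `C j`, where `C j` is a closed subset of
`Y` which contains the centres of the wedges over the flipped surfaces which are contained in the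
`G l`, `l ∈ I`, the `H i`, `i ∈ I'`, or the intersections of the `G l`, `l ∈ K`, with each other and
with the `H i`. -/
theorem stT6N (Y : Type) [TopologicalSpace Y] [T2Space Y] [CompactSpace Y]
    [ChartedSpace (Cm 4) Y]
    [IsManifold 𝓘(ℂ, Cm 4) ω Y] (χ : Chart 4 Y → Cm 4 → Matrix (Fin 4) (Fin 4) ℂ) (k s : ℕ)
    (M : Fin (k + s) → Bd Y) (m : Fin (k + s) → ℕ) (ρ : Fin (k + s) → ℝ) (H : Fin s → Type)
    [∀ i, TopologicalSpace (H i)] [∀ i, T2Space (H i)] [∀ i, CompactSpace (H i)]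
    [∀ i, ConnectedSpace (H i)] [∀ i, ChartedSpace (Cm 3) (H i)]
    [∀ i, IsManifold 𝓘(ℂ, Cm 3) ω (H i)] (ι : ∀ i, H i → Y)
    (sg : ∀ i : Fin s, (M (Fin.natAdd k i)).ι → Y → ℂ) (W : CSp) (X Z : ℕ → CSp) (r : ℕ)
    (v₀ : Y → W.pt) (p : W.pt → (X 0).pt) (P : Bd W.pt) (G : Fin r → Set Y)
    (f : ∀ j, (X j).pt → (Z j).pt) (f' : ∀ j, (X (j + 1)).pt → (Z j).pt)
    (A : ∀ j, Set (Z j).pt) (L : ∀ j, Fin (k + s) → Bd (X j).pt) (c : ℕ → Fin (k + s) → ℕ)
    (σ : ∀ j, ∀ i : Fin s, (L j (Fin.natAdd k i)).ι → (X j).pt → ℂ)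
    (n : Fin (k + s) → Fin r → ℤ) (t : ∀ e, (L 0 e).ι →
      ((((Bd.can 4 Y).pow (m e)).mul (M e)).pow (c 0 e)).ι → Y → ℂ)
    (h : IsPG χ M m ρ ι sg v₀ p P G f f' A L c σ n t)
    (I K : Set (Fin r)) (I' : Set (Fin s))
    (hI : ∀ l, l ∉ I → l ∉ K → 0 ≤ ∑ e, ρ e * n e l / c 0 e)
    (hI' : ∀ i ∉ I', ρ (Fin.natAdd k i) ≤ 1) (hK1 : ∀ l ∈ K, -1 ≤ ∑ e, ρ e * n e l / c 0 e)
    (C : ℕ → Set Y) (hC : ∀ j, IsClosed (C j))
    (hin : ∀ j (φ : Cm 4 → (X (j + 1)).pt) (γ : Cm 4 → Y) (w : Cm 4), ContinuousAt φ w →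
      ContinuousAt γ w → f' j (φ w) ∈ Amin (f j) →
      (∃ᶠ w' in 𝓝 w, Cor (⋃ l, G l) (fun y => p (v₀ y)) f f' (j + 1) (γ w') (φ w')) →
      γ w ∈ bad ι G I I' ∪ cross ι G K → γ w ∈ C j) :
    {j | ¬ DimLe (X (j + 1)) 1 {x | x ∈ f' j ⁻¹' Amin (f j) ∧ ¬ IsReg 4 (X (j + 1)) x ∧
      x ∉ Tot (Cor (⋃ l, G l) (fun y => p (v₀ y)) f f' (j + 1)) (C j)}}.Finite := by
  classical
  have hsum : ∑ e : Fin k, ρ (Fin.castAdd s e) * m (Fin.castAdd s e) = 1 := by
    have h1 := h.sum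
    rw [Fin.sum_univ_add] at h1
    simpa only [h.m0, Nat.cast_zero, mul_zero, Finset.sum_const_zero, add_zero] using h1
  have hk : 1 ≤ k := by
    rcases Nat.eq_zero_or_pos k with rfl | h1
    · simp at hsum
    · exact h1
  set Nb : Set Y := T3.bad ι G I I' ∪ T3.cross ι G K with hNb
  have hn : ∀ l ∉ K, 0 ≤ ∑ e, ρ e * n e l / c 0 e ∨ G l ⊆ Nb := by
    intro l hlK
    by_cases hl : l ∈ I
    · exact Or.inr fun y hy => Or.inl (Or.inl (mem_iUnion₂.2 ⟨l, hl, hy⟩))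
    · exact Or.inl (hI l hl hlK)
  have hn' : ∀ l, 0 ≤ ∑ e, ρ e * n e l / c 0 e ∨ G l ⊆ (univ : Set Y) := fun l =>
    Or.inr (subset_univ _)
  have hrc : ∀ i, IsClosed (range (ι i)) := fun i =>
    (isCompact_range (h.bd i).sub.cont).isClosed
  have hbc : IsClosed Nb := (T3.isClosed_bad h.res.closed fun i => (h.bd i).sub.cont).union
    (isClosed_cross h.res.closed hrc)
  obtain ⟨O, v, P', Q', T, hT⟩ := H884.G.exists_twSeqG H884.stL0 (by omega) h.lb h.res h.c1 h.cmp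
    h.corr hn' h.flip
  have hN : ∀ e, CtBd (((Bd.can 4 Y).pow (m e)).mul (M e)) := fun e => ctBd (h.lb e) (m e)
  -- the values along the wedges
  have hex := fun (Γ : Cm 4 → Y) (D : Set (Cm 4)) (hW : IsWg Γ D) =>
    hT.exists_ordW stWgBase1 stWgStep1 (by omega) h.lb h.res h.cmp hW
  choose α hα1 hα2 hα3 using hex
  set al : (Cm 4 → Y) → Set (Cm 4) → ℕ → Fin (k + s) → ℚ := fun Γ D j =>
    if hW : IsWg Γ D then α Γ D hW j else 0 with hal
  set val : (Cm 4 → Y) → Set (Cm 4) → ℕ → ℝ := fun Γ D j => ∑ e, ρ e * al Γ D j e with hvaldef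
  have hal' : ∀ Γ D (hW : IsWg Γ D) j, al Γ D j = α Γ D hW j := by
    intro Γ D hW j
    simp only [hal]
    rw [dif_pos hW]
  have hmono : ∀ Γ D, IsWg Γ D → ∀ j, val Γ D j ≤ val Γ D (j + 1) := by
    intro Γ D hW j
    simp only [hvaldef]
    rw [hal' Γ D hW, hal' Γ D hW]
    exact hα2 Γ D hW j
  have hrel : ∀ γ γ' D D' w w', IsWg γ D → IsWg γ' D' → w ∈ D → w 0 = 0 → w' ∈ D' → w' 0 = 0 →
      WgRel γ γ' w w' → val γ D = val γ' D' := by
    rintro γ γ' D D' w w' hW hW' hw hw0 hw' hw'0 ⟨χ', hχ1, hχ2, hχ3⟩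
    funext j
    simp only [hvaldef]
    rw [hal' γ D hW, hal' γ' D' hW']
    have h1 := stWgTrans1 Y (k + s) (by omega) W (X j) v₀ h.res.emb (⋃ l, G l) _ hN (L j) (c j)
      (O j) (hT.dense j) (v j) (P' j) (Q' j) (T j) (hT.tw1 j) γ γ' D D' hW hW' _ _ (hα1 γ D hW j)
      (hα1 γ' D' hW' j) w hw hw0 χ' hχ1 (by rw [hχ2]; exact hw') hχ3
    rw [h1]
  obtain ⟨-, hc2⟩ := stConst' Y (ℕ → ℝ) val hrel
  -- the values along the `G l`
  set vl : Fin r → ℕ → ℝ := fun l =>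
    if h : ∃ a : (Cm 4 → Y) × Cm 4 × ℝ, IsPar (G l) a.1 a.2.1 a.2.2 then
      val h.choose.1 (ball h.choose.2.1 h.choose.2.2) else 0 with hvl
  have hvlm : ∀ l j, vl l j ≤ vl l (j + 1) := by
    intro l j
    simp only [hvl]
    split_ifs with h1
    · exact hmono _ _ (stWgPar Y (G l) _ _ _ h1.choose_spec) j
    · exact le_rfl
  have hvle : ∀ l Γ D w₁ r₁, IsWg Γ D → IsPar (G l) Γ w₁ r₁ → w₁ ∈ D → vl l = val Γ D := by
    intro l Γ D w₁ r₁ hw hpar hw₁D
    have hex : ∃ a : (Cm 4 → Y) × Cm 4 × ℝ, IsPar (G l) a.1 a.2.1 a.2.2 := ⟨(Γ, w₁, r₁), hpar⟩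
    have e1 : vl l = val hex.choose.1 (ball hex.choose.2.1 hex.choose.2.2) := by
      simp only [hvl]
      rw [dif_pos hex]
    rw [e1, hc2 (G l) (h.res.hyp l) (h.res.conn l) _ Γ _ w₁ _ r₁ hex.choose_spec hpar]
    exact hrel _ _ _ _ w₁ w₁ (stWgPar Y (G l) _ _ _ hpar) hw (mem_ball_self hpar.pos) hpar.zero
      hw₁D hpar.zero (wgRel_id w₁)
  -- the singular flipped surfaces
  set B : Set ℕ := {j | ¬ DimLe (X (j + 1)) 1 {x | x ∈ f' j ⁻¹' Amin (f j) ∧
    ¬ IsReg 4 (X (j + 1)) x ∧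
    x ∉ Tot (Cor (⋃ l, G l) (fun y => p (v₀ y)) f f' (j + 1)) (C j)}}
    with hB
  have hstage : ∀ j ∈ B, ∃ (nj : Fin r → ℕ) (lam : Fin (k + s) → ℤ), 1 ≤ ∑ l, nj l ∧
      (∀ l, 0 < nj l → -1 < vl l (j + 1) ∧ vl l j < vl l (j + 1)) ∧
      ∑ e, ρ e * lam e = ∑ l, (nj l : ℝ) * vl l (j + 1) ∧
      (∀ e, lam e ≤ 2 * m e) ∧ (∑ l, (nj l : ℝ)) + ∑ e, ρ e * lam e ≤ 2 := by
    intro j hj
    obtain ⟨pp, qq, s', a, hf, d, b, -, -, -, -, -, -, -, -, -⟩ := hT.step j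
    have hTw := hT.tw j
    have hch := exists_chainK H884.stL0 (by omega) (h.flip 0).flip.normal h.lb h.res h.cmp hT j
    have hsub := hT.sub_compl j
    have hdn : ∀ i, range (ι i) ⊆ closure (range (ι i) ∩ O (j + 1)) := by
      intro i
      have hne : Nonempty Y := ⟨ι i (Classical.arbitrary (H i))⟩
      exact (hyp_dense h.res.emb h.res.hyp h.res.closed (isHyp_of_bd (h.lb _) (h.bd i))
        (isPreconnected_range (h.bd i).sub.cont)
        (fun l hl => h.ne i (hl.trans (subset_iUnion G l)))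
        (hTw.tw ⟨0, by omega⟩).emb.isOpen (hTw.tw ⟨0, by omega⟩).thin).2.1
    have hS : ∀ i : Fin s, SecRel (L (j + 1) (Fin.natAdd k i))
        (((Bd.can 4 Y).pow (m (Fin.natAdd k i))).mul (M (Fin.natAdd k i))) (O (j + 1)) (v (j + 1))
        (P' (j + 1) (Fin.natAdd k i)) (Q' (j + 1) (Fin.natAdd k i)) (T (j + 1) (Fin.natAdd k i))
        (fun b y => sg i b.2 y) := by
      intro i
      have h1 := (h.flip (j + 1)).sec i
      refine ⟨fun a x => σ (j + 1) i a x ^ P' (j + 1) (Fin.natAdd k i),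
        ⟨fun a x hx ha => hol_pow (h1.holo a x hx ha) _, fun a b x hx ha hb => ?_⟩, ?_⟩
      · show σ (j + 1) i a x ^ P' (j + 1) (Fin.natAdd k i) = (L (j + 1) (Fin.natAdd k i)).g a b x ^
          P' (j + 1) (Fin.natAdd k i) * σ (j + 1) i b x ^ P' (j + 1) (Fin.natAdd k i)
        rw [h1.change a b x hx ha hb, mul_pow]
      · rintro y hy a ⟨ch, b⟩ ha ⟨hb1, hb2⟩
        rw [mul_comm]
        exact hT.sec (j + 1) i y a ch b hy ha hb1 hb2
    have hlt : ∀ i : Fin s, ρ (Fin.natAdd k i) ≤ 1 ∨ range (ι i) ⊆ Nb := by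
      intro i
      by_cases hi : i ∈ I'
      · exact Or.inr fun y hy => Or.inl (Or.inr (mem_iUnion₂.2 ⟨i, hi, hy⟩))
      · exact Or.inl (hI' i hi)
    have hK2 : ∀ l ∈ K, ∀ l' ∈ K, l ≠ l' → G l ∩ G l' ⊆ Nb := fun l hl l' hl' hll y hy =>
      Or.inr ⟨l, hl, hy.1, Or.inl ⟨l', hl', hll.symm, hy.2⟩⟩
    have hlt' : ∀ l ∈ K, ∀ i, G l ∩ range (ι i) ⊆ Nb := fun l hl i y hy =>
      Or.inr ⟨l, hl, hy.1, Or.inr ⟨i, hy.2⟩⟩
    obtain ⟨dd, sS, l, w₁, φ, Wk, γ, ch, μ, i, x, lam, nj, hd1, hs1, hgm, hpar, hval, hnj, hlam,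
      hlam2, hle⟩ := stage_X
      (Nc := Tot (Cor (⋃ l, G l) (fun y => p (v₀ y)) f f' (j + 1)) (C j))
      (N := Nb) (a := fun l => ∑ e, ρ e * n e l / c 0 e) (Ks := K) (S := f' j ⁻¹' Amin (f j))
      h.kahler h.nef h.pos hsum
      hf.normal' (hTw.tw ⟨0, by omega⟩).emb (hTw.tw ⟨0, by omega⟩).dim h.lb hTw.tw hTw.lb
      (fun W w₀ γ' i hW hw₀ h0 hγ hcl hi hSN => by
        obtain ⟨w₁, hw₁, hw₁0, W₁, γ₀, ch, cc, q, g1, g2, g3, g4, g5, g6, g7, b₀, g8, -, g9⟩ :=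
          hch W w₀ γ' i hW hw₀ h0 hγ hcl hi
        have hb : ∀ w ∈ W₁, w 0 = 0 → γ₀ w ∉ Nb := by
          intro w hw hw0 hwN
          refine H884.G.notMem_of_tot (fun y hy => (cor_iff' hT (j + 1) y _).2 ⟨hy, rfl⟩)
            (subset_closure_of_open g1 g3 hcl) g5 g6 hw (g4 w hw).1 (hγ w (g3 hw)).1
            (hSN w (g3 hw) hw0).2 ?_
          refine hin j γ' γ₀ w (hγ w (g3 hw)).1 (g4 w hw).1 (hSN w (g3 hw) hw0).1 ?_ hwN
          refine (mem_closure_iff_frequently.1 (subset_closure_of_open g1 g3 hcl hw)).mono ?_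
          rintro w' ⟨h1, h2⟩
          exact (cor_iff' hT (j + 1) _ _).2 ⟨g5 w' h1 h2, g6 w' h1 (g5 w' h1 h2)⟩
        exact ⟨w₁, hw₁, hw₁0, W₁, γ₀, ch, cc, q, g1, g2, g3, g4, g5, g6, g7,
          ⟨b₀, g8, g9 (fun w hw hw0 => (hSN w hw hw0).1)⟩, hb⟩)
      hn hK1 hK2 hlt' h.rho hlt h.bd h.disj hdn hS hsub
      (IsAn.preimage (fun x => hf.small'.holMap x) hf.small'.an) (H884.G.isClosed_tot _ (hC j)) hj
    -- the values
    have hv1 : ∀ k', vl (l k') (j + 1) = ∑ e, ρ e / Q' (j + 1) e * x k' e ∧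
        vl (l k') j < vl (l k') (j + 1) := by
      intro k'
      obtain ⟨r₀, hr₀, hr₀s, hwg, hnice⟩ := (hgm k').exists_wg
      obtain ⟨r₁, hr₁⟩ := hpar k'
      have h1 : vl (l k') = val (γ k') (ball w₁ r₀) :=
        hvle _ _ _ _ _ hwg hr₁ (mem_ball_self hr₀)
      rw [h1]
      constructor
      · simp only [hvaldef]
        rw [hal' _ _ hwg]
        refine Finset.sum_congr rfl fun e _ => ?_
        rw [(hα1 _ _ hwg (j + 1)).ord _ _ _ _ _ _ hnice e]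
        have h1 : (Q' (j + 1) e : ℝ) ≠ 0 := by
          have := ((hT.tw j).tw e).hQ
          exact_mod_cast (Nat.one_le_iff_ne_zero.1 this)
        push_cast
        field_simp
      · simp only [hvaldef]
        rw [hal' _ _ hwg, hal' _ _ hwg]
        exact hα3 _ _ hwg j ⟨w₁, r₀, φ k', i k', _, x k', hnice,
          fun w hw hw0 => (hgm k').inS w (hr₀s hw) hw0⟩
    have hs0 : ∀ k', (0 : ℝ) < sS k' := fun k' => by exact_mod_cast hs1 k'
    refine ⟨nj, lam, ?_, ?_, ?_, ?_, hle⟩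
    · have h1 : ∑ l, (nj l : ℝ) = ∑ k', 1 / (sS k' : ℝ) := by
        simp only [hnj]
        rw [Finset.sum_comm]
        refine Finset.sum_congr rfl fun k' _ => ?_
        rw [Finset.sum_ite_eq]
        simp
      have h2 : (0 : ℝ) < ∑ l, (nj l : ℝ) := by
        rw [h1]
        have : Nonempty (Fin dd) := ⟨⟨0, by omega⟩⟩
        exact Finset.sum_pos (fun k' _ => one_div_pos.2 (hs0 k')) Finset.univ_nonempty
      have h3 : 0 < ∑ l, nj l := by exact_mod_cast h2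
      omega
    · intro l₀ hl₀
      obtain ⟨k', rfl⟩ : ∃ k', l k' = l₀ := by
        by_contra hcon
        push Not at hcon
        have h1 : (nj l₀ : ℝ) = 0 := by
          rw [hnj]
          exact Finset.sum_eq_zero fun k' _ => if_neg (hcon k')
        have h2 : nj l₀ = 0 := by exact_mod_cast h1
        omega
      refine ⟨?_, (hv1 k').2⟩
      rw [(hv1 k').1]
      exact hval k'
    · have h1 : ∀ l₀, (nj l₀ : ℝ) * vl l₀ (j + 1) =
          ∑ k', if l k' = l₀ then 1 / (sS k' : ℝ) * vl l₀ (j + 1) else 0 := by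
        intro l₀
        rw [hnj, Finset.sum_mul]
        exact Finset.sum_congr rfl fun k' _ => by rw [ite_mul, zero_mul]
      simp only [h1]
      rw [Finset.sum_comm]
      have h2 : ∀ k', ∑ l₀, (if l k' = l₀ then 1 / (sS k' : ℝ) * vl l₀ (j + 1) else 0) =
          ∑ e, ρ e * ((x k' e : ℝ) / (Q' (j + 1) e * sS k')) := by
        intro k'
        rw [Finset.sum_ite_eq]
        simp only [Finset.mem_univ, if_true]
        rw [(hv1 k').1, Finset.mul_sum]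
        refine Finset.sum_congr rfl fun e _ => ?_
        have h3 := (hs0 k').ne'
        have h4 : (Q' (j + 1) e : ℝ) ≠ 0 := by
          have := ((hT.tw j).tw e).hQ
          exact_mod_cast (Nat.one_le_iff_ne_zero.1 this)
        field_simp
      simp only [h2]
      rw [Finset.sum_comm]
      refine Finset.sum_congr rfl fun e _ => ?_
      rw [hlam, Finset.mul_sum]
    · intro e
      have h1 := hlam2 e
      exact_mod_cast h1
  choose! nj lam g1 g2 g3 g4 g5 using hstage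
  refine H615.stageD ρ m (fun l j => max (vl l j) (-1)) B nj lam h.rho
    (fun l j => max_le_max (hvlm l j) le_rfl) g1 (fun j hj l hl => ?_) (fun j hj => ?_) g4 g5
  · obtain ⟨k1, k2⟩ := g2 j hj l hl
    refine ⟨le_max_right _ _, ?_⟩
    rw [max_eq_left k1.le]
    exact max_lt k2 k1
  · rw [g3 j hj]
    refine Finset.sum_congr rfl fun l _ => ?_
    rcases Nat.eq_zero_or_pos (nj j l) with h1 | h1
    · rw [h1, Nat.cast_zero, zero_mul, zero_mul]
    · rw [max_eq_left (g2 j hj l h1).1.le]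

end Vale.Agent.P277.H884.T
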